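import Vale.Agent.N066.Orient
import Mathlib.RingTheory.MvPolynomial.Symmetric.FundamentalTheorem

/-! The recursion for proper colourings: remove the class of the largest colour. -/

set_option linter.all false

namespace Vale.Agent.N066

open Finset Vale.Agent.P066.H52
open Classical

variable {V : Type} [Fintype V] [LinearOrder V]

/-- The last variable as a polynomial variable. -/
noncomputable def theta (N : ℕ) : MvPolynomial (Fin (N + 1)) (Polynomial ℤ) →ₐ[Polynomial ℤ]
    Polynomial (MvPolynomial (Fin N) (Polynomial ℤ)) :=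
  MvPolynomial.aeval (Fin.lastCases Polynomial.X fun i => Polynomial.C (MvPolynomial.X i))

theorem theta_last (N : ℕ) : theta N (MvPolynomial.X (Fin.last N)) = Polynomial.X := by
  simp [theta]

theorem theta_castSucc (N : ℕ) (i : Fin N) :
    theta N (MvPolynomial.X i.castSucc) = Polynomial.C (MvPolynomial.X i) := by
  simp [theta]

theorem theta_C (N : ℕ) (a : Polynomial ℤ) :
    theta N (MvPolynomial.C a) = Polynomial.C (MvPolynomial.C a) := by
  rw [theta, MvPolynomial.aeval_C]
  rfl

theorem esymm_cons {A : Type*} [CommSemiring A] (a : A) (s : Multiset A) (k : ℕ) :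
    (a ::ₘ s).esymm (k + 1) = s.esymm (k + 1) + a * s.esymm k := by
  unfold Multiset.esymm
  rw [Multiset.powersetCard_cons, Multiset.map_add, Multiset.sum_add, Multiset.map_map,
    ← Multiset.sum_map_mul_left]
  simp

theorem theta_esymm (N k : ℕ) : theta N (MvPolynomial.esymm (Fin (N + 1)) (Polynomial ℤ) (k + 1)) =
    Polynomial.C (MvPolynomial.esymm (Fin N) (Polynomial ℤ) (k + 1)) +
      Polynomial.X * Polynomial.C (MvPolynomial.esymm (Fin N) (Polynomial ℤ) k) := by
  have h : ∀ j, ((univ : Finset (Fin N)).val.map fun i =>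
      (Polynomial.C (MvPolynomial.X i) : Polynomial (MvPolynomial (Fin N) (Polynomial ℤ)))).esymm j =
      Polynomial.C (MvPolynomial.esymm (Fin N) (Polynomial ℤ) j) := by
    intro j
    rw [← MvPolynomial.aeval_esymm_eq_multiset_esymm (Fin N) (Polynomial ℤ)]
    have e : (MvPolynomial.aeval fun i : Fin N => (Polynomial.C (MvPolynomial.X i) :
        Polynomial (MvPolynomial (Fin N) (Polynomial ℤ)))) =
        (Polynomial.CAlgHom : MvPolynomial (Fin N) (Polynomial ℤ) →ₐ[Polynomial ℤ] _) := by
      ext i : 1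
      simp
    rw [e]
    rfl
  rw [theta, MvPolynomial.aeval_esymm_eq_multiset_esymm, Fin.univ_castSuccEmb, cons_val,
    Multiset.map_cons, esymm_cons, map_val, Multiset.map_map]
  simp only [Fin.lastCases_last, Function.comp_def, Fin.castSuccEmb_apply, Fin.lastCases_castSucc,
    h]

/-- The chromatic quasisymmetric polynomial. -/
noncomputable def chrom (G : SimpleGraph V) (N : ℕ) : MvPolynomial (Fin N) (Polynomial ℤ) :=
  ∑ κ : G.Coloring (Fin N), MvPolynomial.C (Polynomial.X ^ ascG G κ) * ∏ a, MvPolynomial.X (κ a)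

/-- Extension of a colouring by a new largest colour on `S`. -/
noncomputable def extC {G : SimpleGraph V} {S : Finset V} (hS : Ind G S) {N : ℕ}
    (κ : (del G S).Coloring (Fin N)) : G.Coloring (Fin (N + 1)) :=
  SimpleGraph.Coloring.mk (fun a => if h : a ∈ S then Fin.last N else (κ ⟨a, h⟩).castSucc) (by
    intro a b hab
    by_cases ha : a ∈ S <;> by_cases hb : b ∈ S
    · exact absurd hab (hS a ha b hb)
    · simp only [dif_pos ha, dif_neg hb]
      exact (Fin.castSucc_lt_last _).ne'
    · simp only [dif_neg ha, dif_pos hb]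
      exact (Fin.castSucc_lt_last _).ne
    · simp only [dif_neg ha, dif_neg hb]
      exact fun h => κ.valid (v := ⟨a, ha⟩) (w := ⟨b, hb⟩) hab (Fin.castSucc_injective _ h))

theorem extC_mem {G : SimpleGraph V} {S : Finset V} (hS : Ind G S) {N : ℕ}
    (κ : (del G S).Coloring (Fin N)) {a : V} (h : a ∈ S) : extC hS κ a = Fin.last N := dif_pos h

theorem extC_not {G : SimpleGraph V} {S : Finset V} (hS : Ind G S) {N : ℕ}
    (κ : (del G S).Coloring (Fin N)) {a : V} (h : a ∉ S) :
    extC hS κ a = (κ ⟨a, h⟩).castSucc := dif_neg h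

theorem asc_extC {G : SimpleGraph V} {S : Finset V} (hS : Ind G S) {N : ℕ}
    (κ : (del G S).Coloring (Fin N)) : ascG G (extC hS κ) = wS G S + ascG (del G S) κ := by
  have hn : ∀ a b, extC hS κ a < extC hS κ b → a ∉ S := fun a b hab ha => by
    rw [extC_mem hS κ ha] at hab
    exact absurd (Fin.le_last _) (not_le.2 hab)
  have := card_split S (fun a b => a < b ∧ G.Adj a b ∧ extC hS κ a < extC hS κ b)
    (fun a b hab => hn a b hab.2.2)
  unfold ascG wS
  convert this using 2
  · congr!
  · congr 1
    ext ⟨a, b⟩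
    simp only [mem_filter, mem_univ, true_and]
    constructor
    · rintro ⟨h1, h2, h3, h4⟩
      refine ⟨⟨h1, h2, ?_⟩, h4⟩
      rw [extC_mem hS κ h4, extC_not hS κ h3]
      exact Fin.castSucc_lt_last _
    · rintro ⟨⟨h1, h2, h3⟩, h4⟩
      exact ⟨h1, h2, hn a b h3, h4⟩
  · congr 1
    ext ⟨a, b⟩
    simp only [mem_filter, mem_univ, true_and]
    rw [extC_not hS κ a.2, extC_not hS κ b.2, Fin.castSucc_lt_castSucc_iff]
    rfl

theorem colour_rec (G : SimpleGraph V) (N : ℕ) : theta N (chrom G (N + 1)) =
    ∑ S with Ind G S, Polynomial.X ^ #S *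
      Polynomial.C (MvPolynomial.C (Polynomial.X ^ wS G S) * chrom (del G S) N) := by
  rw [chrom, map_sum, ← sum_fiberwise_of_maps_to (s := univ) (t := univ.filter (Ind G))
    (g := fun κ : G.Coloring (Fin (N + 1)) => ({a | κ a = Fin.last N} : Finset V))
    (fun κ _ => by
      simp only [mem_filter, mem_univ, true_and]
      intro a ha b hb hab
      simp only [mem_filter, mem_univ, true_and] at ha hb
      exact κ.valid hab (ha.trans hb.symm))]
  refine sum_congr rfl fun S hS => ?_
  have hS : Ind G S := (mem_filter.1 hS).2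
  rw [chrom, mul_sum, map_sum, mul_sum]
  symm
  refine sum_bij (fun κ _ => extC hS κ) ?_ ?_ ?_ ?_
  · intro κ _
    simp only [mem_filter, mem_univ, true_and]
    ext a
    simp only [mem_filter, mem_univ, true_and]
    refine ⟨fun h => by_contra fun ha => ?_, extC_mem hS κ⟩
    rw [extC_not hS κ ha] at h
    exact (Fin.castSucc_lt_last _).ne h
  · intro κ _ κ' _ h
    refine DFunLike.ext _ _ fun a => Fin.castSucc_injective _ ?_
    rw [← extC_not hS κ a.2, ← extC_not hS κ' a.2, h]
  · intro κ hκ
    simp only [mem_filter, mem_univ, true_and] at hκ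
    have hne : ∀ a : {a // a ∉ S}, κ a.1 ≠ Fin.last N := fun a h =>
      a.2 (hκ.subset (mem_filter.2 ⟨mem_univ _, h⟩))
    refine ⟨SimpleGraph.Coloring.mk (fun a => (κ a.1).castPred (hne a)) ?_, mem_univ _, ?_⟩
    · intro a b hab h
      exact κ.valid hab (by simpa using congrArg Fin.castSucc h)
    · refine DFunLike.ext _ _ fun a => ?_
      by_cases ha : a ∈ S
      · rw [extC_mem hS _ ha]
        rw [← hκ] at ha
        exact (mem_filter.1 ha).2.symm
      · rw [extC_not hS _ ha]
        exact Fin.castSucc_castPred _ (hne ⟨a, ha⟩)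
  · intro κ _
    rw [map_mul (theta N), theta_C, map_prod, asc_extC]
    have h0 : ∏ a, theta N (MvPolynomial.X (extC hS κ a)) =
        (∏ a ∈ S, theta N (MvPolynomial.X (extC hS κ a))) *
          ∏ a : {a // a ∉ S}, theta N (MvPolynomial.X (extC hS κ a)) := by
      rw [← prod_mul_prod_compl S, prod_subtype (s := Sᶜ) (p := fun a => a ∉ S) fun a => mem_compl]
    have h1 : ∏ a ∈ S, theta N (MvPolynomial.X (extC hS κ a)) = Polynomial.X ^ #S := by
      rw [prod_congr rfl (g := fun _ => Polynomial.X) fun a ha => by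
        rw [extC_mem hS κ ha, theta_last], prod_const]
    have h2 : ∏ a : {a // a ∉ S}, theta N (MvPolynomial.X (extC hS κ a)) =
        Polynomial.C (∏ a, MvPolynomial.X (κ a)) := by
      rw [map_prod]
      exact prod_congr rfl fun a _ => by rw [extC_not hS κ a.2, theta_castSucc]
    rw [h0, h1, h2]
    simp only [pow_add, map_mul]
    ring

end Vale.Agent.N066
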