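import Mathlib.Combinatorics.SimpleGraph.Basic
import Mathlib.Data.Fintype.Prod

/-! Acyclic orientations of a finite graph, given by their sets of arcs. -/

namespace Vale.Agent.N066

/-- `O` is the set of arcs of an acyclic orientation of `G`: two vertices are adjacent iff they are
joined by an arc in one of the two directions, and there is no directed cycle. -/
def IsAcyclicOrientation {V : Type} (G : SimpleGraph V) (O : Finset (V × V)) : Prop :=
  (∀ a b, G.Adj a b ↔ (a, b) ∈ O ∨ (b, a) ∈ O) ∧
    ∀ a, ¬ Relation.TransGen (fun x y => (x, y) ∈ O) a a

end Vale.Agent.N066
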