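import Vale.Agent.N066.Sink
import Vale.Agent.P066.H52.Edges

/-! The elementary coefficients count acyclic orientations, class by class. -/

set_option linter.all false

namespace Vale.Agent.N066

open Finset Vale.Agent.P066.H52
open Classical

theorem exists_split {A P : Type*} [Nonempty P] (m : P → ℕ) (t : Finset P) :
    ∀ s : Finset A, #s = ∑ p ∈ t, m p →
      ∃ L : A → P, (∀ a ∈ s, L a ∈ t) ∧ ∀ p ∈ t, #{a ∈ s | L a = p} = m p := by
  induction t using Finset.induction_on with
  | empty =>
    intro s hs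
    rw [sum_empty, card_eq_zero] at hs
    exact ⟨fun _ => Classical.arbitrary P, by simp [hs], by simp⟩
  | insert p t hp ih =>
    intro s hs
    rw [sum_insert hp] at hs
    obtain ⟨u, hu, hc⟩ := exists_subset_card_eq (s := s) (n := m p) (by omega)
    obtain ⟨L, h1, h2⟩ := ih (s \ u) (by rw [card_sdiff_of_subset hu]; omega)
    refine ⟨fun a => if a ∈ u then p else L a, fun a ha => ?_, fun r hr => ?_⟩
    · by_cases h : a ∈ u
      · simp [h]
      · simp [h, h1 a (mem_sdiff.2 ⟨ha, h⟩)]
    · rcases mem_insert.1 hr with rfl | hr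
      · rw [← hc]
        congr 1
        ext a
        by_cases h : a ∈ u
        · simp [h, hu h]
        · simp only [h, mem_filter, if_false, iff_false, not_and]
          exact fun ha e => hp (e ▸ h1 a (mem_sdiff.2 ⟨ha, h⟩))
      · rw [← h2 r hr]
        congr 1
        ext a
        by_cases h : a ∈ u
        · have : p ≠ r := fun e => hp (e ▸ hr)
          simp [h, this]
        · simp [h]

theorem exists_label {A P : Type*} [Fintype P] [Nonempty P] (s : Finset A) (k i : A → ℕ)
    (g : P → ℕ) (m : P → ℕ → ℕ)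
    (h : ∀ a b, #{x ∈ s | k x = a ∧ i x = b} = ∑ p with g p = a, m p b) :
    ∃ L : A → P, (∀ x ∈ s, g (L x) = k x) ∧ ∀ p b, #{x ∈ s | L x = p ∧ i x = b} = m p b := by
  choose L h1 h2 using fun a b => exists_split (fun p => m p b) _ _ (h a b)
  have h3 : ∀ x ∈ s, g (L (k x) (i x) x) = k x := fun x hx =>
    (mem_filter.1 (h1 (k x) (i x) x (mem_filter.2 ⟨hx, rfl, rfl⟩))).2
  refine ⟨fun x => L (k x) (i x) x, h3, fun p b => ?_⟩
  rw [← h2 (g p) b p (by simp), filter_filter]
  congr 1
  refine filter_congr fun x hx => ⟨?_, ?_⟩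
  · rintro ⟨rfl, rfl⟩
    rw [h3 x hx]
    exact ⟨⟨rfl, rfl⟩, rfl⟩
  · rintro ⟨⟨e, rfl⟩, e'⟩
    exact ⟨by rw [← e', ← e], rfl⟩

theorem hex (W : Type) [Fintype W] [LinearOrder W] (H : SimpleGraph W) (hH : UI H) :
    ∃ c : (Fintype.card W).Partition → Polynomial ℤ, Expands H c := by
  obtain ⟨h, hmono, hh⟩ := exists_h (monoEquivOfFin W rfl) H hH
  obtain ⟨c, hc, -⟩ := main (monoEquivOfFin W rfl) H h hmono hh
  exact ⟨_, (hc _).2 fun p => rfl⟩

variable {V : Type} [Fintype V] [LinearOrder V]

theorem sink_coeff {n : ℕ} (G : SimpleGraph V) (hn : Fintype.card V = n) (hG : UI G)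
    (c : n.Partition → Polynomial ℕ) (hc : Expands G fun p => (c p).map (Nat.castRingHom ℤ))
    (a b : ℕ) : #{O ∈ univ.filter (IsAcyclicOrientation G) | #(sinks O) = a ∧ ascO O = b} =
      ∑ p with p.parts.card = a, (c p).coeff b := by
  have h := congrArg (Polynomial.compRingHom (Polynomial.X - 1)) (sink_thm hex n V G hn hG _ hc)
  simp only [map_sum, map_mul, map_pow (Polynomial.compRingHom _), Polynomial.coe_compRingHom_apply,
    Polynomial.C_comp, Polynomial.add_comp, Polynomial.X_comp, Polynomial.one_comp,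
    sub_add_cancel] at h
  have h2 := congrArg (fun f => (Polynomial.coeff f a).coeff b) h
  simp only [Polynomial.finset_sum_coeff, Polynomial.coeff_C_mul_X_pow] at h2
  have h3 : ((∑ p with p.parts.card = a, (c p).coeff b : ℕ) : ℤ) =
      #{O ∈ univ.filter (IsAcyclicOrientation G) | #(sinks O) = a ∧ ascO O = b} := by
    rw [Nat.cast_sum, sum_filter, card_filter, Nat.cast_sum]
    refine (sum_congr rfl fun p _ => ?_).trans (h2.trans (sum_congr rfl fun O _ => ?_))
    · by_cases e : p.parts.card = a
      · simp [e]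
      · simp [e, Ne.symm e]
    · by_cases e : #(sinks O) = a
      · simp [e, Polynomial.coeff_X_pow, eq_comm]
      · simp [e, Ne.symm e]
  exact_mod_cast h3.symm

theorem label {n : ℕ} (G : SimpleGraph V) (hn : Fintype.card V = n) (hG : UI G)
    (c : n.Partition → Polynomial ℕ) (hc : Expands G fun p => (c p).map (Nat.castRingHom ℤ)) :
    ∃ L : Finset (V × V) → n.Partition,
      (∀ O, IsAcyclicOrientation G O → (L O).parts.card = #(sinks O)) ∧
      ∀ p, (c p).map (Nat.castRingHom ℤ) =
        ∑ O with IsAcyclicOrientation G O ∧ L O = p, Polynomial.X ^ ascO O := by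
  obtain ⟨L, h1, h2⟩ := exists_label (univ.filter (IsAcyclicOrientation G))
    (fun O => #(sinks O)) ascO (fun p : n.Partition => p.parts.card) (fun p b => (c p).coeff b)
    (sink_coeff G hn hG c hc)
  refine ⟨L, fun O hO => h1 O (by simpa using hO), fun p => ?_⟩
  ext b
  rw [Polynomial.coeff_map, ← h2 p b, Polynomial.finset_sum_coeff, filter_filter]
  simp only [Polynomial.coeff_X_pow, sum_boole, filter_filter, eq_natCast]
  congr 2
  ext O
  simp [and_assoc, eq_comm]

theorem coeff_mul_ge {σ : Type*} (f g : MvPolynomial σ ℕ) (a b : σ →₀ ℕ) :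
    f.coeff a * g.coeff b ≤ (f * g).coeff (a + b) := by
  rw [MvPolynomial.coeff_mul]
  exact single_le_sum (f := fun x : (σ →₀ ℕ) × (σ →₀ ℕ) => f.coeff x.1 * g.coeff x.2)
    (a := (a, b)) (fun _ _ => Nat.zero_le _) (by simp)

/-- The exponent of `x_0 ⋯ x_(k-1)`. -/
noncomputable def col (n k : ℕ) : Fin n →₀ ℕ := ∑ i : Fin n with i.1 < k, Finsupp.single i 1

theorem col_apply (n k : ℕ) (i : Fin n) : col n k i = if (i : ℕ) < k then 1 else 0 := by
  simp [col, Finsupp.finset_sum_apply, Finsupp.single_apply]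

theorem coeff_esymm_ge {n k : ℕ} (h : k ≤ n) :
    1 ≤ (MvPolynomial.esymm (Fin n) ℕ k).coeff (col n k) := by
  rw [MvPolynomial.esymm_eq_sum_monomial, MvPolynomial.coeff_sum]
  refine le_trans ?_ (single_le_sum (a := ({i : Fin n | i.1 < k} : Finset (Fin n)))
    (fun _ _ => Nat.zero_le _) ?_)
  · simp [col]
  · simp [mem_powersetCard, Fin.card_filter_val_lt, h]

theorem coeff_prod_ge {n : ℕ} (s : Multiset ℕ) (hs : ∀ k ∈ s, k ≤ n) :
    1 ≤ (s.map (MvPolynomial.esymm (Fin n) ℕ)).prod.coeff (s.map (col n)).sum := by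
  induction s using Multiset.induction_on with
  | empty => simp
  | cons k s ih =>
    rw [Multiset.map_cons, Multiset.map_cons, Multiset.prod_cons, Multiset.sum_cons]
    exact (Nat.mul_pos (coeff_esymm_ge (hs k (by simp)))
      (ih fun j hj => hs j (by simp [hj]))).trans_le (coeff_mul_ge _ _ _ _)

theorem sum_col_apply (n : ℕ) (s : Multiset ℕ) (i : Fin n) :
    (s.map (col n)).sum i = (s.filter fun k => (i : ℕ) < k).card := by
  induction s using Multiset.induction_on with
  | empty => simp
  | cons k s ih =>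
    rw [Multiset.map_cons, Multiset.sum_cons, Finsupp.add_apply, ih, col_apply,
      Multiset.filter_cons]
    split_ifs <;> simp [add_comm]

theorem upper {n : ℕ} (G : SimpleGraph V) (c : n.Partition → Polynomial ℕ)
    (hc : Expands G fun p => (c p).map (Nat.castRingHom ℤ)) (p : n.Partition) (k : ℕ) :
    (c p).coeff k ≤ #{f : G.Coloring (Fin n) | ascG G f = k ∧
      ∀ i : Fin n, #{a | f a = i} = (p.parts.filter fun j => (i : ℕ) < j).card} := by
  have h := congrArg (fun f => (MvPolynomial.coeff (p.parts.map (col n)).sum f).coeff k) (hc n)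
  have e1 : ∀ r : n.Partition, MvPolynomial.esymmPart (Fin n) (Polynomial ℤ) r =
      MvPolynomial.map (Nat.castRingHom _) (r.parts.map (MvPolynomial.esymm (Fin n) ℕ)).prod := by
    intro r
    rw [MvPolynomial.esymmPart, map_multiset_prod, Multiset.map_map]
    exact congrArg Multiset.prod (Multiset.map_congr rfl fun j _ =>
      (MvPolynomial.map_esymm _ _ _ _).symm)
  have e2 : ∀ f : G.Coloring (Fin n), ∏ a, MvPolynomial.X (f a) =
      (MvPolynomial.monomial (∑ a, Finsupp.single (f a) 1) 1 :
        MvPolynomial (Fin n) (Polynomial ℤ)) := by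
    intro f
    rw [MvPolynomial.monomial_sum_one]
    rfl
  have e3 : ∀ f : G.Coloring (Fin n), (∑ a, Finsupp.single (f a) 1 = (p.parts.map (col n)).sum) ↔
      ∀ i : Fin n, #{a | f a = i} = (p.parts.filter fun j => (i : ℕ) < j).card := by
    intro f
    rw [Finsupp.ext_iff]
    refine forall_congr' fun i => ?_
    rw [sum_col_apply, Finsupp.finset_sum_apply, card_filter]
    simp only [Finsupp.single_apply]
  simp only [MvPolynomial.coeff_sum, MvPolynomial.coeff_C_mul, e1, e2, e3, MvPolynomial.coeff_map,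
    MvPolynomial.coeff_monomial, Polynomial.finset_sum_coeff, eq_natCast,
    Polynomial.coeff_mul_natCast, Polynomial.coeff_map] at h
  have h2 : ((#{f : G.Coloring (Fin n) | ascG G f = k ∧
      ∀ i : Fin n, #{a | f a = i} = (p.parts.filter fun j => (i : ℕ) < j).card} : ℕ) : ℤ) =
      ((∑ r : n.Partition, (c r).coeff k * (r.parts.map (MvPolynomial.esymm (Fin n) ℕ)).prod.coeff
        (p.parts.map (col n)).sum : ℕ) : ℤ) := by
    rw [card_filter, Nat.cast_sum, Nat.cast_sum]
    refine (sum_congr rfl fun f _ => ?_).trans (h.trans (sum_congr rfl fun r _ => by simp))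
    by_cases e : ∀ i : Fin n, #{a | f a = i} = (p.parts.filter fun j => (i : ℕ) < j).card
    · rw [if_pos e, mul_one, Polynomial.coeff_X_pow]
      by_cases e' : ascG G f = k
      · rw [if_pos ⟨e', e⟩, if_pos e'.symm, Nat.cast_one]
      · rw [if_neg fun x => e' x.1, if_neg fun x => e' x.symm, Nat.cast_zero]
    · rw [if_neg e, if_neg fun x => e x.2]
      simp
  rw [Nat.cast_injective h2]
  exact (Nat.le_mul_of_pos_right _ (coeff_prod_ge p.parts fun j hj => part_le p hj)).trans
    (single_le_sum (f := fun r : n.Partition => (c r).coeff k *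
      (r.parts.map (MvPolynomial.esymm (Fin n) ℕ)).prod.coeff (p.parts.map (col n)).sum)
      (fun _ _ => Nat.zero_le _) (mem_univ p))

end Vale.Agent.N066
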