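import Vale.Agent.N066.Defs
import Vale.Agent.P066.H52.Palin

/-! The recursion for acyclic orientations: remove a set of sinks. -/

set_option linter.all false

namespace Vale.Agent.N066

open Finset Vale.Agent.P066.H52
open Classical

variable {V : Type} [Fintype V] [LinearOrder V]

/-- The graph without the vertices of `S`. -/
def del (G : SimpleGraph V) (S : Finset V) : SimpleGraph {a // a ∉ S} := G.comap Subtype.val

/-- The number of edges from a smaller vertex outside `S` to a larger vertex in `S`. -/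
noncomputable def wS (G : SimpleGraph V) (S : Finset V) : ℕ :=
  #{p : V × V | p.1 < p.2 ∧ G.Adj p.1 p.2 ∧ p.1 ∉ S ∧ p.2 ∈ S}

/-- Independent sets. -/
def Ind (G : SimpleGraph V) (S : Finset V) : Prop := ∀ a ∈ S, ∀ b ∈ S, ¬ G.Adj a b

/-- The number of arcs from a smaller to a larger vertex. -/
noncomputable def ascO (O : Finset (V × V)) : ℕ := #{p ∈ O | p.1 < p.2}

/-- The sinks. -/
noncomputable def sinks (O : Finset (V × V)) : Finset V := {a | ∀ b, (a, b) ∉ O}

theorem card_split (S : Finset V) (Q : V → V → Prop) (hQ : ∀ a b, Q a b → a ∉ S) :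
    #{p : V × V | Q p.1 p.2} = #{p : V × V | Q p.1 p.2 ∧ p.2 ∈ S} +
      #{p : {a // a ∉ S} × {a // a ∉ S} | Q p.1.1 p.2.1} := by
  rw [← card_filter_add_card_filter_not (s := ({p : V × V | Q p.1 p.2} : Finset _))
    (fun p => p.2 ∈ S), filter_filter, filter_filter]
  congr 1
  symm
  refine card_bij (fun p _ => (p.1.1, p.2.1)) ?_ ?_ ?_
  · intro p hp
    simp only [mem_filter, mem_univ, true_and] at hp ⊢
    exact ⟨hp, p.2.2⟩
  · intro p _ p' _ h
    simp only [Prod.mk.injEq] at h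
    exact Prod.ext (Subtype.ext h.1) (Subtype.ext h.2)
  · intro p hp
    simp only [mem_filter, mem_univ, true_and] at hp
    exact ⟨(⟨p.1, hQ _ _ hp.1⟩, ⟨p.2, hp.2⟩), by simpa using hp.1, rfl⟩

/-- Restriction of an orientation. -/
noncomputable def resO (S : Finset V) (O : Finset (V × V)) :
    Finset ({a // a ∉ S} × {a // a ∉ S}) := {p | (p.1.1, p.2.1) ∈ O}

/-- Extension of an orientation, with all vertices of `S` as sinks. -/
noncomputable def extO (G : SimpleGraph V) (S : Finset V)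
    (O : Finset ({a // a ∉ S} × {a // a ∉ S})) : Finset (V × V) :=
  {p | ∃ h1 : p.1 ∉ S, (p.2 ∈ S ∧ G.Adj p.1 p.2) ∨ ∃ h2 : p.2 ∉ S, (⟨p.1, h1⟩, ⟨p.2, h2⟩) ∈ O}

theorem mem_resO {S : Finset V} {O : Finset (V × V)} {a b : {a // a ∉ S}} :
    (a, b) ∈ resO S O ↔ (a.1, b.1) ∈ O := by simp [resO]

theorem mem_extO {G : SimpleGraph V} {S : Finset V} {O : Finset ({a // a ∉ S} × {a // a ∉ S})}
    {a b : V} : (a, b) ∈ extO G S O ↔
      ∃ h1 : a ∉ S, (b ∈ S ∧ G.Adj a b) ∨ ∃ h2 : b ∉ S, (⟨a, h1⟩, ⟨b, h2⟩) ∈ O := by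
  simp only [extO, mem_filter, mem_univ, true_and]

theorem acyclic_res {G : SimpleGraph V} {O : Finset (V × V)} (h : IsAcyclicOrientation G O)
    (S : Finset V) : IsAcyclicOrientation (del G S) (resO S O) := by
  refine ⟨fun a b => ?_, fun a ha => h.2 a.1 ?_⟩
  · rw [mem_resO, mem_resO]
    exact h.1 a.1 b.1
  · exact Relation.TransGen.lift (p := fun x y => (x, y) ∈ O) Subtype.val
      (fun x y hxy => mem_resO.1 hxy) a a ha

theorem acyclic_ext {G : SimpleGraph V} {S : Finset V} (hS : Ind G S)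
    {O : Finset ({a // a ∉ S} × {a // a ∉ S})} (h : IsAcyclicOrientation (del G S) O) :
    IsAcyclicOrientation G (extO G S O) := by
  refine ⟨fun a b => ?_, fun a ha => ?_⟩
  · rw [mem_extO, mem_extO]
    constructor
    · intro hab
      by_cases ha : a ∈ S
      · exact Or.inr ⟨fun hb => hS a ha b hb hab, Or.inl ⟨ha, hab.symm⟩⟩
      · by_cases hb : b ∈ S
        · exact Or.inl ⟨ha, Or.inl ⟨hb, hab⟩⟩
        · rcases (h.1 ⟨a, ha⟩ ⟨b, hb⟩).1 hab with h1 | h1
          · exact Or.inl ⟨ha, Or.inr ⟨hb, h1⟩⟩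
          · exact Or.inr ⟨hb, Or.inr ⟨ha, h1⟩⟩
    · rintro (⟨ha, h1 | ⟨hb, h1⟩⟩ | ⟨hb, h1 | ⟨ha, h1⟩⟩)
      · exact h1.2
      · exact (h.1 ⟨a, ha⟩ ⟨b, hb⟩).2 (Or.inl h1)
      · exact h1.2.symm
      · exact (h.1 ⟨a, ha⟩ ⟨b, hb⟩).2 (Or.inr h1)
  · have key : ∀ x y, Relation.TransGen (fun x y => (x, y) ∈ extO G S O) x y →
        ∃ hx : x ∉ S, ∀ hy : y ∉ S,
          Relation.TransGen (fun x y => (x, y) ∈ O) ⟨x, hx⟩ ⟨y, hy⟩ := by
      intro x y hxy
      induction hxy with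
      | single h1 =>
        obtain ⟨hx, h2 | ⟨hy, h2⟩⟩ := mem_extO.1 h1
        · exact ⟨hx, fun hy => absurd h2.1 hy⟩
        · exact ⟨hx, fun _ => .single h2⟩
      | tail _ h1 ih =>
        obtain ⟨hx, ih⟩ := ih
        obtain ⟨hb, h2 | ⟨hy, h2⟩⟩ := mem_extO.1 h1
        · exact ⟨hx, fun hy => absurd h2.1 hy⟩
        · exact ⟨hx, fun _ => (ih hb).tail h2⟩
    obtain ⟨hx, hk⟩ := key a a ha
    exact h.2 _ (hk hx)

theorem mem_sinks {O : Finset (V × V)} {a : V} : a ∈ sinks O ↔ ∀ b, (a, b) ∉ O := by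
  simp [sinks]

theorem ext_res {G : SimpleGraph V} {O : Finset (V × V)} (h : IsAcyclicOrientation G O)
    {S : Finset V} (hS : S ⊆ sinks O) : extO G S (resO S O) = O := by
  ext ⟨a, b⟩
  rw [mem_extO]
  constructor
  · rintro ⟨ha, h1 | ⟨hb, h1⟩⟩
    · rcases (h.1 a b).1 h1.2 with h2 | h2
      · exact h2
      · exact absurd h2 (mem_sinks.1 (hS h1.1) a)
    · exact mem_resO.1 h1
  · intro hab
    have ha : a ∉ S := fun ha => mem_sinks.1 (hS ha) b hab
    by_cases hb : b ∈ S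
    · exact ⟨ha, Or.inl ⟨hb, (h.1 a b).2 (Or.inl hab)⟩⟩
    · exact ⟨ha, Or.inr ⟨hb, mem_resO.2 hab⟩⟩

theorem res_ext (G : SimpleGraph V) (S : Finset V) (O : Finset ({a // a ∉ S} × {a // a ∉ S})) :
    resO S (extO G S O) = O := by
  ext ⟨a, b⟩
  rw [mem_resO, mem_extO]
  constructor
  · rintro ⟨_, h1 | ⟨_, h1⟩⟩
    · exact absurd h1.1 b.2
    · exact h1
  · intro h1
    exact ⟨a.2, Or.inr ⟨b.2, h1⟩⟩

theorem asc_split {G : SimpleGraph V} {O : Finset (V × V)} (h : IsAcyclicOrientation G O)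
    {S : Finset V} (hS : S ⊆ sinks O) : ascO O = wS G S + ascO (resO S O) := by
  have := card_split S (fun a b => (a, b) ∈ O ∧ a < b)
    (fun a b hab ha => mem_sinks.1 (hS ha) b hab.1)
  unfold ascO wS
  convert this using 2
  · ext p
    simp
  · congr 1
    ext ⟨a, b⟩
    simp only [mem_filter, mem_univ, true_and]
    constructor
    · rintro ⟨h1, h2, h3, h4⟩
      rcases (h.1 a b).1 h2 with h5 | h5
      · exact ⟨⟨h5, h1⟩, h4⟩
      · exact absurd h5 (mem_sinks.1 (hS h4) a)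
    · rintro ⟨⟨h1, h2⟩, h3⟩
      exact ⟨h2, (h.1 a b).2 (Or.inl h1), fun ha => mem_sinks.1 (hS ha) b h1, h3⟩
  · congr 1
    ext ⟨a, b⟩
    simp [resO]

/-- The `q`-count of acyclic orientations. -/
noncomputable def aoq (G : SimpleGraph V) : Polynomial ℤ :=
  ∑ O with IsAcyclicOrientation G O, Polynomial.X ^ ascO O

theorem orient_rec (G : SimpleGraph V) :
    ∑ O with IsAcyclicOrientation G O,
      Polynomial.C (Polynomial.X ^ ascO O : Polynomial ℤ) * (Polynomial.X + 1) ^ #(sinks O) =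
    ∑ S with Ind G S, Polynomial.X ^ #S * Polynomial.C (Polynomial.X ^ wS G S * aoq (del G S)) := by
  have h1 : ∀ O : Finset (V × V), ((Polynomial.X + 1) ^ #(sinks O) : Polynomial (Polynomial ℤ)) =
      ∑ S : Finset V, if S ⊆ sinks O then Polynomial.X ^ #S else 0 := by
    intro O
    rw [← sum_pow_mul_eq_add_pow, ← sum_filter]
    refine sum_congr (by ext S; simp) fun S _ => by simp
  simp only [h1, mul_sum]
  rw [sum_comm, sum_filter]
  refine sum_congr rfl fun S _ => ?_
  simp only [mul_ite, mul_zero]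
  rw [← sum_filter, filter_filter]
  split_ifs with hS
  · rw [aoq, mul_sum, map_sum, mul_sum]
    refine sum_bij' (fun O _ => resO S O) (fun O _ => extO G S O) ?_ ?_ ?_ ?_ ?_
    · intro O hO
      simp only [mem_filter, mem_univ, true_and] at hO ⊢
      exact acyclic_res hO.1 S
    · intro O hO
      simp only [mem_filter, mem_univ, true_and] at hO ⊢
      refine ⟨acyclic_ext hS hO, fun a ha => mem_sinks.2 fun b hb => ?_⟩
      obtain ⟨h, -⟩ := mem_extO.1 hb
      exact h ha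
    · intro O hO
      simp only [mem_filter, mem_univ, true_and] at hO
      exact ext_res hO.1 hO.2
    · intro O _
      exact res_ext G S O
    · intro O hO
      simp only [mem_filter, mem_univ, true_and] at hO
      rw [asc_split hO.1 hO.2, pow_add, mul_comm]
  · refine sum_eq_zero fun O hO => ?_
    simp only [mem_filter, mem_univ, true_and] at hO
    refine absurd (fun a ha b hb hab => ?_) hS
    rcases (hO.1.1 a b).1 hab with h | h
    · exact mem_sinks.1 (hO.2 ha) b h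
    · exact mem_sinks.1 (hO.2 hb) a h

theorem sinks_nonempty [Nonempty V] {G : SimpleGraph V} {O : Finset (V × V)}
    (h : IsAcyclicOrientation G O) : (sinks O).Nonempty := by
  let r : V → V → Prop := fun a b => Relation.TransGen (fun x y => (x, y) ∈ O) b a
  haveI : IsTrans V r := ⟨fun a b c h1 h2 => h2.trans h1⟩
  haveI : Std.Irrefl r := ⟨h.2⟩
  obtain ⟨a, -, ha⟩ := (Finite.wellFounded_of_trans_of_irrefl r).has_min Set.univ Set.univ_nonempty
  exact ⟨a, mem_sinks.2 fun b hb => ha b trivial (.single hb)⟩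

end Vale.Agent.N066
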