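import Vale.Agent.N066.Colour

/-! The sink theorem with the parameter `q`, for graphs all of whose induced subgraphs have an
expansion in the elementary basis. -/

set_option linter.all false

namespace Vale.Agent.N066

open Finset Vale.Agent.P066.H52
open Classical

/-- Formal elementary symmetric functions. -/
noncomputable def fE (N k : ℕ) : MvPolynomial (Fin N) (Polynomial ℤ) :=
  if k = 0 then 1 else if h : k - 1 < N then MvPolynomial.X ⟨k - 1, h⟩ else 0

/-- The substitution of the elementary symmetric polynomials. -/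
noncomputable def iota (N : ℕ) :
    MvPolynomial (Fin N) (Polynomial ℤ) →ₐ[Polynomial ℤ] MvPolynomial (Fin N) (Polynomial ℤ) :=
  MvPolynomial.aeval fun i : Fin N => MvPolynomial.esymm (Fin N) (Polynomial ℤ) (i + 1)

/-- The substitution of `1`. -/
noncomputable def psi (N : ℕ) : MvPolynomial (Fin N) (Polynomial ℤ) →ₐ[Polynomial ℤ] Polynomial ℤ :=
  MvPolynomial.aeval fun _ => 1

theorem iota_injective (N : ℕ) : Function.Injective (iota N) := by
  intro a b h
  apply MvPolynomial.esymmAlgHom_fin_injective (Polynomial ℤ) (le_refl N)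
  apply Subtype.ext
  rw [MvPolynomial.esymmAlgHom_apply, MvPolynomial.esymmAlgHom_apply]
  exact h

theorem iota_fE {N k : ℕ} (h : k ≤ N) :
    iota N (fE N k) = MvPolynomial.esymm (Fin N) (Polynomial ℤ) k := by
  rcases k with _ | k
  · simp [fE]
  · have : k + 1 - 1 < N := by omega
    simp only [fE, Nat.succ_ne_zero, if_false, dif_pos this, iota, MvPolynomial.aeval_X]
    rfl

theorem psi_fE {N k : ℕ} (h : k ≤ N) : psi N (fE N k) = 1 := by
  rcases k with _ | k
  · simp [fE]
  · have : k + 1 - 1 < N := by omega
    simp only [fE, Nat.succ_ne_zero, if_false, dif_pos this, psi, MvPolynomial.aeval_X]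

theorem part_le {n : ℕ} (p : n.Partition) {k : ℕ} (h : k ∈ p.parts) : k ≤ n :=
  p.parts_sum ▸ Multiset.single_le_sum (fun _ _ => Nat.zero_le _) k h

theorem iota_C (N : ℕ) (a : Polynomial ℤ) :
    (iota N).toRingHom (MvPolynomial.C a) = MvPolynomial.C a := (iota N).commutes a

theorem psi_C (N : ℕ) (a : Polynomial ℤ) : (psi N).toRingHom (MvPolynomial.C a) = a :=
  (psi N).commutes a

theorem iota_sum {n N : ℕ} (h : n ≤ N) (d : n.Partition → Polynomial ℤ) :
    (iota N).toRingHom (∑ p, MvPolynomial.C (d p) * (p.parts.map (fE N)).prod) =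
      ∑ p, MvPolynomial.C (d p) * MvPolynomial.esymmPart (Fin N) (Polynomial ℤ) p := by
  rw [map_sum]
  refine sum_congr rfl fun p _ => ?_
  rw [map_mul, iota_C, MvPolynomial.esymmPart, map_multiset_prod, Multiset.map_map]
  exact congrArg (fun s => MvPolynomial.C (d p) * Multiset.prod s)
    (Multiset.map_congr rfl fun k hk => iota_fE ((part_le p hk).trans h))

theorem psi_sum {n N : ℕ} (h : n ≤ N) (d : n.Partition → Polynomial ℤ) :
    (psi N).toRingHom (∑ p, MvPolynomial.C (d p) * (p.parts.map (fE N)).prod) = ∑ p, d p := by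
  rw [map_sum]
  refine sum_congr rfl fun p _ => ?_
  have : (psi N).toRingHom (p.parts.map (fE N)).prod = 1 := by
    rw [map_multiset_prod, Multiset.map_map]
    exact Multiset.prod_eq_one fun x hx => by
      obtain ⟨k, hk, rfl⟩ := Multiset.mem_map.1 hx
      exact psi_fE ((part_le p hk).trans h)
  rw [map_mul, psi_C, this, mul_one]

/-- The formal image of `e_p` when the last variable is singled out. -/
noncomputable def fP (N : ℕ) {n : ℕ} (p : n.Partition) :
    Polynomial (MvPolynomial (Fin N) (Polynomial ℤ)) :=
  (p.parts.map fun k => Polynomial.C (fE N k) + Polynomial.X * Polynomial.C (fE N (k - 1))).prod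

theorem iota_fP {n N : ℕ} (h : n ≤ N) (p : n.Partition) : (fP N p).map (iota N).toRingHom =
    theta N (MvPolynomial.esymmPart (Fin (N + 1)) (Polynomial ℤ) p) := by
  rw [fP, MvPolynomial.esymmPart, map_multiset_prod, Polynomial.map_multiset_prod,
    Multiset.map_map, Multiset.map_map]
  refine congrArg Multiset.prod (Multiset.map_congr rfl fun k hk => ?_)
  have hk1 := (part_le p hk).trans h
  have hk0 := p.parts_pos hk
  obtain ⟨j, rfl⟩ : ∃ j, k = j + 1 := ⟨k - 1, by omega⟩
  simp only [Function.comp, theta_esymm, Polynomial.map_add, Polynomial.map_mul,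
    Polynomial.map_C, Polynomial.map_X, Nat.add_sub_cancel]
  rw [← iota_fE hk1, ← iota_fE (by omega : j ≤ N)]
  rfl

theorem psi_fP {n N : ℕ} (h : n ≤ N) (p : n.Partition) :
    (fP N p).map (psi N).toRingHom = (Polynomial.X + 1) ^ p.parts.card := by
  rw [fP, Polynomial.map_multiset_prod, Multiset.map_map, ← Multiset.prod_replicate,
    ← Multiset.map_const']
  refine congrArg Multiset.prod (Multiset.map_congr rfl fun k hk => ?_)
  have hk1 := (part_le p hk).trans h
  simp only [Function.comp, Polynomial.map_add, Polynomial.map_mul, Polynomial.map_C,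
    Polynomial.map_X]
  have a1 : (psi N).toRingHom (fE N k) = 1 := psi_fE hk1
  have a2 : (psi N).toRingHom (fE N (k - 1)) = 1 := psi_fE (by omega)
  rw [a1, a2]
  simp [add_comm]

variable {V : Type} [Fintype V] [LinearOrder V]

theorem sink_rec (G : SimpleGraph V) {N : ℕ} (hN : Fintype.card V = N)
    (c : N.Partition → Polynomial ℤ) (hc : Expands G c)
    (d : ∀ S : Finset V, (Fintype.card {a // a ∉ S}).Partition → Polynomial ℤ)
    (hd : ∀ S, Expands (del G S) (d S)) :
    ∑ p, Polynomial.C (c p) * (Polynomial.X + 1) ^ p.parts.card =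
      ∑ S with Ind G S, Polynomial.X ^ #S * Polynomial.C (Polynomial.X ^ wS G S * ∑ p, d S p) := by
  have hcard : ∀ S : Finset V, Fintype.card {a // a ∉ S} ≤ N :=
    fun S => hN ▸ Fintype.card_subtype_le _
  have hPQ : ∑ p, Polynomial.C (MvPolynomial.C (c p)) * fP N p =
      ∑ S with Ind G S, Polynomial.X ^ #S * Polynomial.C (MvPolynomial.C (Polynomial.X ^ wS G S) *
        ∑ p, MvPolynomial.C (d S p) * (p.parts.map (fE N)).prod) := by
    apply Polynomial.map_injective (iota N).toRingHom (iota_injective N)
    have h1 := colour_rec G N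
    have e1 : chrom G (N + 1) = _ := hc (N + 1)
    rw [e1, map_sum] at h1
    rw [Polynomial.map_sum, Polynomial.map_sum]
    refine (sum_congr rfl fun p _ => ?_).trans (h1.trans (sum_congr rfl fun S _ => ?_))
    · rw [Polynomial.map_mul, Polynomial.map_C, iota_C, iota_fP le_rfl, map_mul, theta_C]
    · have e2 : chrom (del G S) N = _ := hd S N
      rw [e2, Polynomial.map_mul, Polynomial.map_pow, Polynomial.map_X, Polynomial.map_C,
        map_mul (iota N).toRingHom, iota_C, iota_sum (hcard S)]
  have h2 := congrArg (Polynomial.map (psi N).toRingHom) hPQ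
  rw [Polynomial.map_sum, Polynomial.map_sum] at h2
  refine (sum_congr rfl fun p _ => ?_).trans (h2.trans (sum_congr rfl fun S _ => ?_))
  · rw [Polynomial.map_mul, Polynomial.map_C, psi_C, psi_fP le_rfl]
  · rw [Polynomial.map_mul, Polynomial.map_pow, Polynomial.map_X, Polynomial.map_C,
      map_mul (psi N).toRingHom, psi_C, psi_sum (hcard S)]

/-- The property that defines natural unit interval graphs. -/
def UI (G : SimpleGraph V) : Prop := ∀ x y z, x < y → y < z → G.Adj x z → G.Adj x y ∧ G.Adj y z

theorem UI.del {G : SimpleGraph V} (h : UI G) (S : Finset V) : UI (del G S) :=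
  fun x y z h1 h2 h3 => h x.1 y.1 z.1 h1 h2 h3

theorem sink_thm (hex : ∀ (W : Type) [Fintype W] [LinearOrder W] (H : SimpleGraph W), UI H →
      ∃ c : (Fintype.card W).Partition → Polynomial ℤ, Expands H c) (n : ℕ) :
    ∀ (V : Type) [Fintype V] [LinearOrder V] (G : SimpleGraph V), Fintype.card V = n → UI G →
      ∀ c : n.Partition → Polynomial ℤ, Expands G c →
      ∑ p, Polynomial.C (c p) * (Polynomial.X + 1) ^ p.parts.card =
      ∑ O with IsAcyclicOrientation G O,
        Polynomial.C (Polynomial.X ^ ascO O : Polynomial ℤ) * (Polynomial.X + 1) ^ #(sinks O) := by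
  induction n using Nat.strong_induction_on with
  | _ n ih =>
  intro V _ _ G hn hG c hc
  choose d hd using fun S => hex _ (del G S) (hG.del S)
  have hrec := sink_rec G hn c hc d hd
  have hlow : ∀ S : Finset V, S ≠ ∅ → ∑ p, d S p = aoq (del G S) := by
    intro S hS
    obtain ⟨a, ha⟩ := nonempty_iff_ne_empty.2 hS
    have hlt : Fintype.card {a // a ∉ S} < n :=
      hn ▸ Fintype.card_subtype_lt (x := a) (not_not.2 ha)
    have := congrArg (Polynomial.eval 0) (ih _ hlt _ (del G S) rfl (hG.del S) (d S) (hd S))
    simpa [Polynomial.eval_finset_sum, aoq] using this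
  have hmem : (∅ : Finset V) ∈ univ.filter (Ind G) := by simp [Ind]
  have hdiff : ∑ p, Polynomial.C (c p) * (Polynomial.X + 1) ^ p.parts.card -
      ∑ O with IsAcyclicOrientation G O, Polynomial.C (Polynomial.X ^ ascO O : Polynomial ℤ) *
        (Polynomial.X + 1) ^ #(sinks O) = Polynomial.C (∑ p, d ∅ p - aoq (del G ∅)) := by
    rw [hrec, orient_rec, ← sum_sub_distrib, sum_eq_single_of_mem (a := ∅) hmem]
    · simp [wS]
    · intro S _ hS
      rw [hlow S hS, sub_self]
  rcases isEmpty_or_nonempty V with hV | hV
  · have h0 : n = 0 := hn ▸ Fintype.card_eq_zero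
    have h1 := hc 0
    have hp : ∀ p : n.Partition, p.parts = 0 := fun p =>
      Multiset.eq_zero_of_forall_notMem fun k hk => by
        have := part_le p hk
        have := p.parts_pos hk
        omega
    haveI : Unique (G.Coloring (Fin 0)) :=
      ⟨⟨SimpleGraph.Coloring.mk (fun a => isEmptyElim a) fun {a} => isEmptyElim a⟩,
        fun κ => DFunLike.ext _ _ fun a => isEmptyElim a⟩
    simp only [MvPolynomial.esymmPart, hp, Multiset.map_zero, Multiset.prod_zero, mul_one,
      Fintype.sum_unique, univ_eq_empty, prod_empty, ascG, filter_empty, card_empty, pow_zero,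
      ← map_sum] at h1
    have h2 : ∑ p, c p = 1 := (MvPolynomial.C_injective _ _ h1).symm
    have h3 : (univ.filter (IsAcyclicOrientation G)) = {∅} := by
      ext O
      have : O = ∅ := eq_empty_of_isEmpty O
      simp only [this, mem_filter, mem_univ, true_and, mem_singleton, iff_true]
      exact ⟨fun a => isEmptyElim a, fun a => isEmptyElim a⟩
    simp only [hp, Multiset.card_zero, pow_zero, mul_one, ← map_sum, h2, h3, sum_singleton]
    simp [ascO, eq_empty_of_isEmpty (sinks _)]
  · have h1 := congrArg (Polynomial.eval (-1)) hdiff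
    rw [Polynomial.eval_sub, Polynomial.eval_finset_sum, Polynomial.eval_finset_sum, sum_eq_zero,
      sum_eq_zero, Polynomial.eval_C, sub_self] at h1
    · rw [← h1, map_zero] at hdiff
      exact sub_eq_zero.1 hdiff
    · intro O hO
      have := (sinks_nonempty (mem_filter.1 hO).2).card_pos
      simp [this.ne']
    · intro p _
      have : p.parts.card ≠ 0 := fun h => by
        have h2 := p.parts_sum
        rw [Multiset.card_eq_zero.1 h, Multiset.sum_zero] at h2
        exact Fintype.card_ne_zero (hn.trans h2.symm)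
      simp [this]

end Vale.Agent.N066
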